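import Mathlib

/-! # Row 237, part B: data of the rational base point

Monomials of degree `≤ 4` in 7 variables are coded by `∑ αᵢ 5^i`; `w 0 = 0` is the monomial `1`.
A polynomial is a sparse list of (code, coefficient).  `bs 0 .. bs 7` are `1, x₀, .., x₆`,
`bs 8 .. bs 19` complete them to an orthogonal family of positive norm for the moment functional `ys`,
`bs 20 .. bs 35` span the kernel of its moment matrix. -/

set_option autoImplicit false

namespace Crest.Agent.R237.B

def w : Fin 8 → ℕ := ![0, 1, 5, 25, 125, 625, 3125, 15625]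

/-- product of sparse polynomials -/
def sp (l m : List (ℕ × ℤ)) : List (ℕ × ℤ) := l.flatMap fun a => m.map fun b => (a.1 + b.1, a.2 * b.2)

/-- value of the functional with moments `δ` on a sparse polynomial -/
noncomputable def lin (l : List (ℕ × ℤ)) (δ : ℕ → ℝ) : ℝ := (l.map fun a => (a.2 : ℝ) * δ a.1).sum

def bsL : List (List (ℕ × ℤ)) :=
  [[(0, 1)],
   [(1, 1)],
   [(5, 1)],
   [(25, 1)],
   [(125, 1)],
   [(625, 1)],
   [(3125, 1)],
   [(15625, 1)],
   [(0, -35), (2, 32)],
   [(25, -11), (6, 5)],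
   [(625, -21), (3125, -88), (126, 77)],
   [(125, -3), (15625, -16), (626, 11)],
   [(125, -27), (15625, -19), (626, 11), (3126, 11)],
   [(625, -23), (3125, -19), (126, 15), (15626, 13)],
   [(0, 82), (2, -245), (10, 541)],
   [(1, -11), (30, 35)],
   [(0, -2), (2, -5), (10, -1), (50, 50)],
   [(0, 10), (2, 7), (10, 5), (50, -168), (250, 20)],
   [(1, 11), (5, -24), (30, -44), (750, 33)],
   [(0, 10), (2, 7), (10, 5), (50, -168), (250, 5), (1250, 15)],
   [(5, -1), (26, 1)],
   [(625, -3), (3125, -4), (126, 3), (15626, -1), (130, 5)],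
   [(125, -2), (15625, -4), (626, 2), (3126, -1), (630, 5)],
   [(125, -3), (15625, -1), (626, -7), (3126, 1), (3130, 10)],
   [(625, -4), (3125, -2), (126, -1), (15626, 2), (15630, 5)],
   [(125, -3), (15625, -11), (626, 3), (3126, 1), (150, 10)],
   [(625, -4), (3125, -7), (126, 4), (15626, 2), (650, 5)],
   [(625, -23), (3125, -4), (126, 3), (15626, 4), (3150, 20)],
   [(125, -11), (15625, -2), (626, 1), (3126, 2), (15650, 10)],
   [(1, -2), (5, -3), (30, -1), (750, 3), (3250, 3)],
   [(25, -2), (6, -1), (15750, 3)],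
   [(25, -1), (6, -2), (3750, 3)],
   [(1, -1), (5, -3), (30, -2), (750, 3), (16250, 3)],
   [(2, -12), (50, 63), (6250, 5)],
   [(1, -1), (30, 4), (750, -9), (18750, 6)],
   [(0, 10), (2, 7), (10, 5), (50, -168), (250, 5), (1250, 5), (31250, 10)]]

def bs (r : Fin 36) : List (ℕ × ℤ) := bsL.getD r []

def ysL : List (ℕ × ℤ) :=
  [(0, 64), (2, 70), (4, 178), (10, 22), (12, 70), (20, 106), (31, 22), (50, 10), (52, 22), (60, 10), (100, 3),
   (250, 22), (252, 70), (260, 22), (300, 10), (500, 106), (751, 6), (755, 16), (776, 16), (780, 6), (1250, 22),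
   (1252, 70), (1260, 22), (1300, 10), (1500, 22), (2500, 106), (3251, 48), (3255, 6), (3276, 6), (3280, 12),
   (3756, 54), (3775, 18), (6250, 42), (6252, 150), (6260, 42), (6300, 15), (6500, 42), (7500, 42), (12500, 171),
   (15756, 38), (15775, 14), (16251, 32), (16255, 6), (16276, 6), (16280, 8), (18751, 6), (18755, 24), (18776,
   24), (18780, 6), (19500, 30), (31250, 22), (31252, 70), (31260, 22), (31300, 10), (31500, 22), (32500, 22),
   (37500, 42), (62500, 64)]

/-- moments of the base point -/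
def ys (c : ℕ) : ℤ := (ysL.lookup c).getD 0

def dgL : List ℤ := [64, 70, 22, 10, 22, 22, 42, 22, 103872, 540, 80080, 2640, 2640, 780, 22722000, 3780, 500, 25200, 4752, 12600]

/-- diagonal of the Gram matrix -/
def dg (r : Fin 36) : ℤ := dgL.getD r 0

end Crest.Agent.R237.B
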