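import Mathlib

/-! # R237/Der (copy of R23/GEN/Der): derivations with prescribed values on algebraically independent elements (from R271/T2/Der) -/

set_option autoImplicit false
set_option linter.unusedSectionVars false

open scoped Classical

noncomputable section

namespace Crest.Agent.R237.GEN

theorem formallySmooth_of_charZero (K L : Type) [Field K] [Field L] [Algebra K L] [CharZero K] :
    Algebra.FormallySmooth K L := by
  obtain ⟨s, hs⟩ := exists_isTranscendenceBasis K L
  have := hs.isAlgebraic_field
  exact .of_algebraicIndependent_of_isSeparable hs.1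

/-- dual numbers (a type synonym without the algebra instances) -/
def DualN (F : Type) [Field F] : Type := TrivSqZeroExt F F

instance instDualN (F : Type) [Field F] : CommRing (DualN F) := inferInstanceAs (CommRing (TrivSqZeroExt F F))

/-- the projection to the first coordinate -/
def fstN (F : Type) [Field F] : DualN F →+* F := (TrivSqZeroExt.fstHom F F F).toRingHom

/-- the inclusion -/
def inlN (F : Type) [Field F] : F →+* DualN F := TrivSqZeroExt.inlHom F F

theorem exists_der_of_sec {C K : Type} [Field C] [CharZero C] [Field K] [Algebra C K] (σ : K →+* DualN K) (hσ : ∀ x, fstN K (σ x) = x)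
    (hc : ∀ c : C, σ (algebraMap C K c) = inlN K (algebraMap C K c)) :
    ∃ δ : Derivation C K K, ∀ x, δ x = TrivSqZeroExt.snd (σ x) := by
  have hmul : ∀ a b, TrivSqZeroExt.snd (σ (a * b)) =
      a • TrivSqZeroExt.snd (σ b) + b • TrivSqZeroExt.snd (σ a) := by
    intro a b
    have ha : TrivSqZeroExt.fst (σ a) = a := hσ a
    have hb : TrivSqZeroExt.fst (σ b) = b := hσ b
    rw [map_mul]
    refine (TrivSqZeroExt.snd_mul (σ a) (σ b)).trans ?_
    rw [ha, hb, op_smul_eq_smul]
  refine ⟨Derivation.mk'
    { toFun := fun x => TrivSqZeroExt.snd (σ x)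
      map_add' := fun x y => by rw [map_add]; rfl
      map_smul' := fun c x => ?_ } hmul, fun x => rfl⟩
  have h0 : TrivSqZeroExt.snd (σ (algebraMap C K c)) = 0 := by rw [hc]; rfl
  rw [Algebra.smul_def, hmul, h0, smul_zero, add_zero, RingHom.id_apply, Algebra.smul_def c, smul_eq_mul]

theorem exists_derivation {C K : Type} [Field C] [CharZero C] [Field K] [Algebra C K] {ι : Type} {z : ι → K}
    (hz : AlgebraicIndependent C z) (v : ι → K) : ∃ δ : Derivation C K K, ∀ i, δ (z i) = v i := by
  have : CharZero K := charZero_of_injective_algebraMap (algebraMap C K).injective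
  let φ : MvPolynomial ι C →+* K := MvPolynomial.eval₂Hom (algebraMap C K) z
  have hφ : Function.Injective φ := hz
  let z' : ι → DualN K := fun i => (TrivSqZeroExt.inl (z i) + TrivSqZeroExt.inr (v i) : TrivSqZeroExt K K)
  let ψ : MvPolynomial ι C →+* DualN K := MvPolynomial.eval₂Hom ((inlN K).comp (algebraMap C K)) z'
  let _ : Algebra (MvPolynomial ι C) K := φ.toAlgebra
  let _ : Algebra (MvPolynomial ι C) (DualN K) := ψ.toAlgebra
  have : FaithfulSMul (MvPolynomial ι C) K := (faithfulSMul_iff_algebraMap_injective _ _).mpr hφ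
  let _ : Algebra (FractionRing (MvPolynomial ι C)) K := FractionRing.liftAlgebra _ _
  have : IsScalarTower (MvPolynomial ι C) (FractionRing (MvPolynomial ι C)) K :=
    FractionRing.isScalarTower_liftAlgebra _ _
  have : CharZero (FractionRing (MvPolynomial ι C)) :=
    RingHom.charZero (algebraMap (FractionRing (MvPolynomial ι C)) K)
  have : Algebra.FormallySmooth (MvPolynomial ι C) (FractionRing (MvPolynomial ι C)) :=
    .of_isLocalization (nonZeroDivisors _)
  have : Algebra.FormallySmooth (FractionRing (MvPolynomial ι C)) K := formallySmooth_of_charZero _ _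
  have : Algebra.FormallySmooth (MvPolynomial ι C) K := .comp _ (FractionRing (MvPolynomial ι C)) _
  have hz' : ∀ i, fstN K (z' i) = z i := fun i => by
    change TrivSqZeroExt.fst (TrivSqZeroExt.inl (z i) + TrivSqZeroExt.inr (v i) : TrivSqZeroExt K K) = z i
    simp
  have hcomp : (fstN K).comp ψ = φ := by
    refine MvPolynomial.ringHom_ext (fun c => ?_) fun i => ?_
    · simp only [φ, ψ, RingHom.comp_apply, MvPolynomial.eval₂Hom_C]
      rfl
    · simp only [φ, ψ, RingHom.comp_apply, MvPolynomial.eval₂Hom_X', hz']
  let g : DualN K →ₐ[MvPolynomial ι C] K :=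
    { fstN K with commutes' := fun p => RingHom.congr_fun hcomp p }
  have hg : Function.Surjective g := fun x => ⟨inlN K x, rfl⟩
  have hg' : IsNilpotent (RingHom.ker (g : DualN K →+* K)) := ⟨2, TrivSqZeroExt.kerIdeal_sq K K⟩
  let σ := Algebra.FormallySmooth.liftOfSurjective (AlgHom.id (MvPolynomial ι C) K) g hg hg'
  have hσ : ∀ x, fstN K ((σ : K →+* DualN K) x) = x := fun x =>
    Algebra.FormallySmooth.liftOfSurjective_apply (AlgHom.id (MvPolynomial ι C) K) g hg hg' x
  have hp : ∀ p, σ (φ p) = ψ p := fun p => σ.commutes p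
  obtain ⟨δ, hδ⟩ := exists_der_of_sec (σ : K →+* DualN K) hσ fun c => by
    have h1 := hp (MvPolynomial.C c)
    simp only [φ, ψ, MvPolynomial.eval₂Hom_C] at h1
    exact h1
  refine ⟨δ, fun i => ?_⟩
  have h1 := hp (MvPolynomial.X i)
  simp only [φ, ψ, MvPolynomial.eval₂Hom_X'] at h1
  rw [hδ]
  change TrivSqZeroExt.snd (σ (z i)) = v i
  rw [h1]
  change TrivSqZeroExt.snd (TrivSqZeroExt.inl (z i) + TrivSqZeroExt.inr (v i) : TrivSqZeroExt K K) = v i
  simp

end Crest.Agent.R237.GEN
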